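import Vale.Agent.P022K.G2.SpecA

/-!
# P004F, block PRES: framed cocycles with local conditions given by matrices (definitions, rows)

`a g` is the action on a free module of rank `n` over `R`. The condition at the place `P i` says
that the cocycle is `b i g` applied to a common column `l` of parameters.
-/

set_option linter.all false

noncomputable section

namespace Vale.Agent.P004F.Pr

open NumberField
open Vale.Agent.P022 Vale.Agent.P022K.G2
open Vale.Agent.P022D.W (dec)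
open Vale.Agent.P022E.GW (Ov)
open scoped Pointwise

variable {R : Type} [CommRing R] {n μ ν κ : Type} [Fintype n] [Fintype μ] [Fintype ν]
  {M : Type} [AddCommGroup M] [Module R M]

/-- a matrix applied to a column with entries in a module -/
def ac {s : Type} (A : Matrix s μ R) (x : μ → M) : s → M := fun i => ∑ j, A i j • x j

theorem ac_add {s : Type} (A : Matrix s μ R) (x y : μ → M) : ac A (x + y) = ac A x + ac A y :=
  funext fun i => by simp only [ac, Pi.add_apply, smul_add, Finset.sum_add_distrib]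

theorem ac_smul {s : Type} (A : Matrix s μ R) (r : R) (x : μ → M) : ac A (r • x) = r • ac A x :=
  funext fun i => by simp only [ac, Pi.smul_apply, Finset.smul_sum, smul_comm r]

theorem ac_zero {s : Type} (A : Matrix s μ R) : ac A (0 : μ → M) = 0 :=
  funext fun i => by simp [ac]

variable (M) in
/-- locally constant cocycles of `Γ` (extended by zero), unramified outside `T`, with parameters
for the local conditions -/
def Zs (Γ : Subgroup GQ) (T : Finset ℕ) (a : GQ → Matrix n n R) (P : κ → Ideal (𝓞 Qb))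
    (b : κ → GQ → Matrix n μ R) : Submodule R ((GQ → n → M) × (μ → M)) where
  carrier := {x | (∀ g ∈ Γ, ∀ h ∈ Γ, x.1 (g * h) = x.1 g + ac (a g) (x.1 h)) ∧
    (∀ g ∉ Γ, x.1 g = 0) ∧ (∃ W : Subgroup GQ, IsOpen (W : Set GQ) ∧ ∀ w ∈ W, x.1 w = 0) ∧
    (∀ g ∈ In T, x.1 g = 0) ∧ ∀ i, ∀ g ∈ Γ ⊓ dec (P i), x.1 g = ac (b i g) x.2}
  add_mem' := by
    rintro x y ⟨x1, x2, ⟨W, hW, x3⟩, x4, x5⟩ ⟨y1, y2, ⟨V, hV, y3⟩, y4, y5⟩
    refine ⟨fun g hg h hh => ?_, fun g hg => ?_, ⟨W ⊓ V, hW.inter hV, fun w m => ?_⟩,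
      fun g hg => ?_, fun i g hg => ?_⟩ <;> simp only [Prod.fst_add, Prod.snd_add, Pi.add_apply]
    · rw [x1 g hg h hh, y1 g hg h hh, ac_add]; abel
    · rw [x2 g hg, y2 g hg, add_zero]
    · rw [x3 w m.1, y3 w m.2, add_zero]
    · rw [x4 g hg, y4 g hg, add_zero]
    · rw [x5 i g hg, y5 i g hg, ac_add]
  zero_mem' := ⟨fun _ _ _ _ => by simp [ac_zero], fun _ _ => rfl,
    ⟨⊤, isOpen_univ, fun _ _ => rfl⟩, fun _ _ => rfl, fun _ _ _ => (ac_zero _).symm⟩
  smul_mem' := by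
    rintro r x ⟨x1, x2, ⟨W, hW, x3⟩, x4, x5⟩
    refine ⟨fun g hg h hh => ?_, fun g hg => ?_, ⟨W, hW, fun w m => ?_⟩,
      fun g hg => ?_, fun i g hg => ?_⟩ <;> simp only [Prod.smul_fst, Prod.smul_snd, Pi.smul_apply]
    · rw [x1 g hg h hh, ac_smul, smul_add]
    · rw [x2 g hg, smul_zero]
    · rw [x3 w m, smul_zero]
    · rw [x4 g hg, smul_zero]
    · rw [x5 i g hg, ac_smul]

variable [DecidableEq n]

/-- `Γ` is the group of an imaginary quadratic field, `a` is a representation of `Γ` which is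
unramified outside `T` -/
structure Gd (Γ : Subgroup GQ) (T : Finset ℕ) (a : GQ → Matrix n n R) : Prop where
  opn : IsOpen (Γ : Set GQ)
  idx : Γ.index = 2
  cx : ∀ w, Γ ⊓ St (ip w) = ⊥
  two : 2 ∈ T
  pr : ∀ l ∈ T, l.Prime
  one : a 1 = 1
  mul : ∀ g ∈ Γ, ∀ h ∈ Γ, a (g * h) = a g * a h
  lc : ∃ W : Subgroup GQ, IsOpen (W : Set GQ) ∧ ∀ w ∈ Γ, w ∈ W → a w = 1
  unr : ∀ g ∈ Γ, g ∈ In T → a g = 1

/-- the places with a condition: distinct places of the field, above `T`, at most one above two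
(of degree one); the columns of `b i` are cocycles modulo the relations `N`; the dual of the
residual module has no invariants, or some tame place of degree one above `T` with trivial
residual action carries no condition -/
structure Lo (π : R →+* ZMod 2) (Γ : Subgroup GQ) (T : Finset ℕ) (a : GQ → Matrix n n R)
    (P : κ → Ideal (𝓞 Qb)) (b : κ → GQ → Matrix n μ R) (N : Matrix ν μ R) : Prop where
  ov : ∀ i, ∃ l ∈ T, Ov l (P i)
  un : ∀ i j, ∀ g ∈ Γ, P j = g • P i → i = j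
  deg : ∀ i, Ov 2 (P i) → dec (P i) ≤ Γ
  uni : ∀ i j, Ov 2 (P i) → Ov 2 (P j) → i = j
  coc : ∀ i, ∀ g ∈ Γ ⊓ dec (P i), ∀ h ∈ Γ ⊓ dec (P i), ∃ β : Matrix n ν R,
    b i (g * h) = b i g + a g * b i h + β * N
  lc : ∀ i, ∃ W : Subgroup GQ, IsOpen (W : Set GQ) ∧ ∀ g ∈ Γ ⊓ dec (P i),
    ∀ w ∈ Γ ⊓ dec (P i), w ∈ W → b i (g * w) = b i g
  min : N.map π = 0
  rel : (∀ y : n → ZMod 2, (∀ g ∈ Γ, Matrix.vecMul y ((a g).map π) = y) → y = 0) ∨
    ∃ l ∈ T, l ≠ 2 ∧ ∃ Q, Ov l Q ∧ dec Q ≤ Γ ∧ (∀ g ∈ dec Q, (a g).map π = 1) ∧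
      ∀ i, ∀ g ∈ Γ, Q ≠ g • P i

/-- `(Q, u, w)` is a minimal presentation with its universal element -/
structure Pres (π : R →+* ZMod 2) (Γ : Subgroup GQ) (T : Finset ℕ) (a : GQ → Matrix n n R)
    (P : κ → Ideal (𝓞 Qb)) (b : κ → GQ → Matrix n μ R) (N : Matrix ν μ R) {g r : ℕ}
    (Q : Matrix (Fin r) (Fin g) R) (u : GQ → Matrix n (Fin g) R) (w : Matrix μ (Fin g) R) :
    Prop where
  min : Q.map π = 0
  bij : ∀ (M : Type) [AddCommGroup M] [Module R M],
    Set.BijOn (fun y : Fin g → M => (fun γ => ac (u γ) y, ac w y))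
      {y | ac Q y = 0 ∧ ac (N * w) y = 0} {x | x ∈ Zs M Γ T a P b ∧ ac N x.2 = 0}
  crd : Nat.card (Zs (ZMod 2) Γ T (fun γ => (a γ).map π) P fun i γ => (b i γ).map π) = 2 ^ g

/-- **the presentation**: relations minus generators -/
def PRES : Prop := ∀ (R : Type) [CommRing R] [IsLocalRing R] [Finite R] (π : R →+* ZMod 2)
  (n μ ν κ : Type) [Fintype n] [DecidableEq n] [Fintype μ] [Fintype ν] [Fintype κ]
  (Γ : Subgroup GQ) (T : Finset ℕ) (a : GQ → Matrix n n R) (P : κ → Ideal (𝓞 Qb))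
  (b : κ → GQ → Matrix n μ R) (N : Matrix ν μ R), Fintype.card n ≤ 2 → Gd Γ T a →
  Lo π Γ T a P b N → ∃ (g r : ℕ) (Q : Matrix (Fin r) (Fin g) R) (u : GQ → Matrix n (Fin g) R)
    (w : Matrix μ (Fin g) R), Pres π Γ T a P b N Q u w ∧
    r + Fintype.card μ + Fintype.card n = g + Fintype.card κ * Fintype.card n

/-- **the number of generators is bounded** when a bounded number of primes is added -/
def BND : Prop := ∀ (n : Type) [Fintype n] [DecidableEq n] (Γ : Subgroup GQ) (T : Finset ℕ)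
  (a : GQ → Matrix n n (ZMod 2)), Gd Γ T a → ∃ C : ℕ, ∀ (μ κ : Type) [Fintype μ]
  (T' : Finset ℕ) (P : κ → Ideal (𝓞 Qb)) (b : κ → GQ → Matrix n μ (ZMod 2)),
  (∀ l ∈ T', l.Prime) → Finite (Zs (ZMod 2) Γ (T ∪ T') a P b) ∧
    Nat.card (Zs (ZMod 2) Γ (T ∪ T') a P b) ≤
      2 ^ (C + Fintype.card μ + 2 * Fintype.card n * T'.card)

end Vale.Agent.P004F.Pr
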