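import Vale.Agent.P004F.Pr.Core

/-!
# P004F, block PRES: the cone with parameters, projectivity in rank two, minimal generators
-/

set_option linter.all false

noncomputable section

namespace Vale.Agent.P004F.Pr

open Module Cardinal
open Vale.Agent.P022K.G2 Vale.Agent.P022K.G2.Cn Vale.Agent.P022K.G2.Sb

section cone

variable {G : Type} [Group G] [TopologicalSpace G] {k : Type} [Field k] {N L : Type}
  [AddCommGroup N] [Module k N] [AddCommGroup L] [Module k L] {ι : Type}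

/-- cocycles with parameters -/
def Zk (I : Set G) (Γ : Subgroup G) (D : ι → Subgroup G) (ρ : G → End k N)
    (b : ι → G → L →ₗ[k] N) : Submodule k ((G → N) × L) where
  carrier := {x | x.1 ∈ Z1 I Γ ρ ∧ ∀ i, ∀ d ∈ D i, x.1 d = b i d x.2}
  add_mem' {x y} hx hy := ⟨add_mem hx.1 hy.1, fun i d hd => by
    simp only [Prod.fst_add, Prod.snd_add, map_add, Pi.add_apply]
    rw [hx.2 i d hd, hy.2 i d hd]⟩
  zero_mem' := ⟨zero_mem _, fun i d _ => by simp⟩
  smul_mem' r x hx := ⟨Submodule.smul_mem _ r hx.1, fun i d hd => by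
    simp only [Prod.smul_fst, Prod.smul_snd, map_smul, Pi.smul_apply]
    rw [hx.2 i d hd]⟩

/-- the coboundaries of the cone with parameters -/
def Bk (I : Set G) (Γ : Subgroup G) (D : ι → Subgroup G) (ρ : G → End k N)
    (b : ι → G → L →ₗ[k] N) : Submodule k ((G → G → N) × (ι → G → N)) where
  carrier := {x | ∃ c ∈ C1 k N I Γ, ∃ l : L, (∀ g ∈ Γ, ∀ h ∈ Γ, x.1 g h = d1 ρ c g h) ∧
    ∀ i, ∀ d ∈ D i, x.2 i d = c d - b i d l}
  add_mem' := by
    rintro x y ⟨c, hc, a, h1, h2⟩ ⟨c', hc', a', e1, e2⟩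
    refine ⟨c + c', add_mem hc hc', a + a', fun g hg h hh => ?_, fun i d hd => ?_⟩
    · simp only [Prod.fst_add, map_add, Pi.add_apply]; rw [h1 g hg h hh, e1 g hg h hh]
    · simp only [Prod.snd_add, map_add, Pi.add_apply]; rw [h2 i d hd, e2 i d hd]; abel
  zero_mem' := ⟨0, zero_mem _, 0, fun _ _ _ _ => by simp, fun _ _ _ => by simp⟩
  smul_mem' := by
    rintro r x ⟨c, hc, a, h1, h2⟩
    refine ⟨r • c, Submodule.smul_mem _ r hc, r • a, fun g hg h hh => ?_, fun i d hd => ?_⟩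
    · simp only [Prod.smul_fst, map_smul, Pi.smul_apply]; rw [h1 g hg h hh]
    · simp only [Prod.smul_snd, map_smul, Pi.smul_apply]; rw [h2 i d hd, smul_sub]

theorem cnt [Fintype ι] {I : Set G} {Γ : Subgroup G} {D : ι → Subgroup G} {ρ : G → End k N}
    {b : ι → G → L →ₗ[k] N} (r : Rp I Γ ρ) (le : ∀ i, D i ≤ Γ)
    (hb : ∀ i l, (D i : Set G).indicator (fun g => b i g l) ∈ Z1 ∅ (D i) ρ) :
    rq (Zc I Γ D ρ) (Bk I Γ D ρ b) + (rk (Z1 I Γ ρ) + Module.rank k L) ≤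
      sh I Γ D ρ + ∑ i, rk (Z1 ∅ (D i) ρ) + rk (Zk I Γ D ρ b) := by
  let P := Submodule.pi Set.univ fun i => Z1 ∅ (D i) ρ
  let m : ((G → N) × L) →ₗ[k] ι → G → N :=
    .pi fun j => ind (D j) ∘ₗ (.fst _ _ _ - .pi (b j) ∘ₗ .snd _ _ _)
  have hm : ∀ x j, ∀ d ∈ D j, m x j d = x.1 d - b j d x.2 := fun x j d hd =>
    Set.indicator_of_mem hd _
  rw [← rq_split (.fst _ _ _) (Zc I Γ D ρ) (B := Bk I Γ D ρ b) (B' := B2 I Γ ρ)
    fun y ⟨c, hc, _, h, _⟩ => ⟨c, hc, h⟩, ← rk_fst, ← rk_map m, ← rk_pi2,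
    ← rq_map (.inr k (G → G → N) _) P (Bk I Γ D ρ b), ← add_assoc, ← add_assoc]
  refine add_le_add (add_le_add (add_le_add (rq_mono ?_) (rq_sub ?_)) (Submodule.rank_mono ?_))
    (Submodule.rank_mono fun x ⟨hx, h⟩ => ⟨hx, fun j d hd => sub_eq_zero.1
      ((hm x j d hd).symm.trans (congrFun (congrFun h j) d))⟩)
  · rintro _ ⟨y, hy, rfl⟩
    exact ⟨hy.1, (Submodule.mem_iInf _).2 fun j => ⟨_, hy.2 j⟩⟩
  · rintro y ⟨hy, c, hc, h⟩
    refine ⟨_, ⟨fun j => (D j : Set G).indicator (y.2 j - c), fun j _ => z1_of r.one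
      (sub_mem (hy.2 j).1 (C1.mono hc (Set.empty_subset _) (le j))) fun g hg l hl => ?_, rfl⟩,
      c, hc, 0, fun g hg l hl => (sub_zero _).trans (h g hg l hl), fun j d hd => ?_⟩
    · rw [map_sub, Pi.sub_apply, Pi.sub_apply, ← (hy.2 j).2 g hg l hl, sub_eq_zero]
      exact h g (le j hg) l (le j hl)
    · simp [hd]
  · rintro _ ⟨x, hx, rfl⟩
    refine ⟨fun j _ => ?_, x.1, Z1.c1 hx, x.2, fun g hg l hl => (d1_z1 hx hg hl).symm, hm x⟩
    have := sub_mem (Z1.res hx (Set.empty_subset _) (le j)) (hb j x.2)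
    rwa [← Set.indicator_sub'] at this

end cone

theorem ex_phi0 (m : ℕ) (h : m ≤ 2) : ∃ φ : Matrix (Fin m) (Fin m) F2,
    ∑ p : Matrix (Fin m) (Fin m) F2 × Matrix (Fin m) (Fin m) F2,
      (if p.1 * p.2 = 1 then p.1 * φ * p.2 else 0) = 1 := by
  interval_cases m
  · exact ⟨0, Subsingleton.elim _ _⟩
  · exact ⟨1, by decide +kernel⟩
  · exact ⟨!![1, 0; 0, 0], by decide +kernel⟩

theorem ex_phi {n : Type} [Fintype n] [DecidableEq n] (h : Fintype.card n ≤ 2) :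
    ∃ φ : Matrix n n F2, ∑ g : (Matrix n n F2)ˣ, g.1 * φ * g⁻¹.1 = 1 := by
  classical
  obtain ⟨φ, hφ⟩ := ex_phi0 _ h
  let e := Matrix.reindexAlgEquiv F2 F2 (Fintype.equivFin n).symm
  refine ⟨e φ, ?_⟩
  rw [← map_one e, ← hφ, ← Finset.sum_filter, map_sum]
  refine Finset.sum_bij (fun g _ => (e.symm g.1, e.symm g⁻¹.1)) (fun g _ => ?_)
    (fun g _ g' _ c => Units.ext (e.symm.injective (congrArg Prod.fst c))) (fun p hp => ?_)
    fun g _ => by simp only [map_mul, AlgEquiv.apply_symm_apply]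
  · rw [Finset.mem_filter, ← map_mul, Units.mul_inv, map_one]
    exact ⟨Finset.mem_univ _, rfl⟩
  · have c := (Finset.mem_filter.1 hp).2
    exact ⟨⟨e p.1, e p.2, by rw [← map_mul, c, map_one], by
      rw [← map_mul, mul_eq_one_comm.1 c, map_one]⟩, Finset.mem_univ _,
      Prod.ext (e.symm_apply_apply _) (e.symm_apply_apply _)⟩

/-- modules of rank at most two over the field with two elements are projective -/
theorem prj2 {G : Type} [Group G] [TopologicalSpace G] {n : Type} [Fintype n] [DecidableEq n] (h : Fintype.card n ≤ 2)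
    {Γ U : Subgroup G} {a : G → Matrix n n F2} (one : a 1 = 1)
    (mul : ∀ g ∈ Γ, ∀ h ∈ Γ, a (g * h) = a g * a h) (hU : ∀ g, g ∈ U ↔ g ∈ Γ ∧ a g = 1) :
    Prj Γ U fun g => (a g).mulVecLin := by
  classical
  obtain ⟨φ, hφ⟩ := ex_phi h
  let f : Γ →* (Matrix n n F2)ˣ := MonoidHom.toHomUnits
    { toFun := fun g => a g, map_one' := one, map_mul' := fun g j => mul _ g.2 _ j.2 }
  letI : TopologicalSpace (Matrix n n F2)ˣ := ⊥
  haveI : DiscreteTopology (Matrix n n F2)ˣ := ⟨rfl⟩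
  let σ : (Matrix n n F2)ˣ → End F2 (n → F2) := fun g => g.1.mulVecLin
  obtain ⟨S, ψ, t, -, e⟩ := prr _ F2 _ ∅ ⊤ ⊥ f.range σ ⟨Matrix.mulVecLin_one,
    fun g _ j _ => Matrix.mulVecLin_mul _ _, ⊥, ⟨inferInstance, isOpen_discrete _, inferInstance,
      Set.empty_subset _⟩, fun w _ m => by
        rw [Subgroup.mem_bot.1 m]; exact Matrix.mulVecLin_one⟩
    (prj_of Finset.univ id (fun _ _ => trivial) (fun g _ => ⟨g, Finset.mem_univ _, by simp⟩)
      (fun i _ j _ m => inv_mul_eq_one.1 (Subgroup.mem_bot.1 m)) φ.mulVecLin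
      (fun u _ m => by
        rw [Subgroup.mem_bot.1 m, show σ 1 = 1 from Matrix.mulVecLin_one, mul_one, one_mul])
      (by
        rw [← show Matrix.toLinAlgEquiv' (1 : Matrix n n F2) = 1 from map_one _, ← hφ, map_sum]
        exact Finset.sum_congr rfl fun g _ => by rw [map_mul, map_mul]; rfl))
    (fun g _ u m => by simp [Subgroup.mem_bot.1 m])
    (fun u _ m => by rw [Subgroup.mem_bot.1 m]; exact Matrix.mulVecLin_one) le_top
  choose! s hs using fun r (m : r ∈ S) => t.mem r m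
  have k : ∀ g j : Γ, (g : G)⁻¹ * j ∈ U ↔ (f g)⁻¹ * f j ∈ (⊥ : Subgroup _) := fun g j => by
    rw [hU, Subgroup.mem_bot, ← map_inv, ← map_mul, Units.ext_iff]
    exact and_iff_right (g⁻¹ * j).2
  refine prj_of S (fun r => s r) (fun r _ => (s r).2) (fun g hg => ?_)
    (fun i hi j hj m => t.un i hi j hj (by rwa [k, hs i hi, hs j hj] at m)) ψ
    (fun u _ m => by rw [((hU u).1 m).2, Matrix.mulVecLin_one]; rfl) ?_
  · obtain ⟨r, hr, m⟩ := t.ex (f ⟨g, hg⟩) ⟨_, rfl⟩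
    exact ⟨r, hr, (k _ ⟨g, hg⟩).2 (by rwa [hs r hr])⟩
  · rw [← e]
    refine Finset.sum_congr rfl fun r hr => ?_
    conv_rhs => rw [← hs r hr, ← map_inv]
    rfl

section gen

variable {R : Type} [CommRing R] [IsLocalRing R] (π : R →+* F2)

theorem unit_of {r : R} (h : π r ≠ 0) : IsUnit r := by
  by_contra c
  exact h ((IsLocalRing.eq_maximalIdeal (RingHom.ker_isMaximal_of_surjective π
    (ZMod.ringHom_surjective π))).ge c)

/-- minimal generators of `K` modulo `K₀` -/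
theorem min_gen {Y : Type} [AddCommGroup Y] [Module R Y] [Finite Y] (K K₀ : Submodule R Y) :
    ∃ (r : ℕ) (Q : Fin r → Y), (∀ t, Q t ∈ K) ∧ (∀ y ∈ K, ∃ c : Fin r → R,
      y - ∑ t, c t • Q t ∈ K₀) ∧ ∀ c : Fin r → R, ∑ t, c t • Q t ∈ K₀ → ∀ t, π (c t) = 0 := by
  classical
  have ex : ∃ (r : ℕ) (Q : Fin r → Y), (∀ t, Q t ∈ K) ∧ ∀ y ∈ K, ∃ c : Fin r → R,
      y - ∑ t, c t • Q t ∈ K₀ := by
    obtain ⟨r, ⟨e⟩⟩ := Finite.exists_equiv_fin K
    exact ⟨r, fun t => e.symm t, fun t => (e.symm t).2, fun y hy => ⟨Pi.single (e ⟨y, hy⟩) 1, by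
      simp [Pi.single_apply]⟩⟩
  obtain ⟨Q, h1, h2⟩ := Nat.find_spec ex
  refine ⟨_, Q, h1, h2, fun c hc t => by_contra fun n => ?_⟩
  have mn := fun m => Nat.find_min ex (m := m)
  generalize Nat.find ex = r at *
  obtain _ | r := r
  · exact t.elim0
  obtain ⟨u, hu⟩ := unit_of π n
  refine mn r (Nat.lt_succ_self r) ⟨fun s => Q (t.succAbove s), fun s => h1 _, fun y hy => ?_⟩
  obtain ⟨d, hd⟩ := h2 y hy
  refine ⟨fun s => d (t.succAbove s) - d t * u⁻¹.1 * c (t.succAbove s), ?_⟩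
  convert add_mem hd (K₀.smul_mem (d t * u⁻¹.1) hc) using 1
  rw [Fin.sum_univ_succAbove _ t, Fin.sum_univ_succAbove _ t, smul_add, smul_smul, ← hu,
    Units.inv_mul_cancel_right, Finset.smul_sum]
  simp only [sub_smul, Finset.sum_sub_distrib, smul_smul]
  abel

theorem ex_quot {M : Type} [AddCommGroup M] [Module R M] [Finite M] [Nontrivial M] :
    ∃ f : M →ₛₗ[π] F2, f ≠ 0 := by
  obtain ⟨r, Q, -, h2, h3⟩ := min_gen π (⊤ : Submodule R M) ⊥
  choose c hc using fun y => h2 y trivial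
  simp only [Submodule.mem_bot, sub_eq_zero] at hc h3
  have k : ∀ y (d : Fin r → R), y = ∑ t, d t • Q t → ∀ t, π (c y t) = π (d t) := fun y d e t => by
    rw [← sub_eq_zero, ← map_sub]
    exact h3 (c y - d) (by
      simp only [Pi.sub_apply, sub_smul, Finset.sum_sub_distrib]; rw [← hc, ← e, sub_self]) t
  obtain _ | r := r
  · obtain ⟨y, hy⟩ := exists_ne (0 : M)
    exact (hy (by simpa using hc y)).elim
  refine ⟨⟨⟨fun y => π (c y 0), fun y z => ?_⟩, fun s y => ?_⟩, fun e => ?_⟩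
  · rw [← map_add]
    exact k _ (c y + c z) (by
      simp only [Pi.add_apply, add_smul, Finset.sum_add_distrib]; rw [← hc, ← hc]) 0
  · rw [smul_eq_mul, ← map_mul]
    exact k _ (s • c y) (by
      simp only [Pi.smul_apply, smul_eq_mul, mul_smul]; rw [← Finset.smul_sum, ← hc]) 0
  · have := k (Q 0) (Pi.single 0 1) (by simp [Pi.single_apply]) 0
    rw [show π (c (Q 0) 0) = 0 from LinearMap.congr_fun e (Q 0), Pi.single_eq_same, map_one] at this
    exact zero_ne_one this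

end gen

end Vale.Agent.P004F.Pr
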