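import Vale.Agent.P004F.Pr.Cnt

/-!
# P004F, block PRES: functoriality and representability
-/

set_option linter.all false

noncomputable section

namespace Vale.Agent.P004F.Pr

open NumberField
open Vale.Agent.P022 Vale.Agent.P022K.G2
open Vale.Agent.P022D.W (dec)

variable {R R' : Type} [CommRing R] [CommRing R'] {σ : R →+* R'} {n μ ν κ : Type} [Fintype n]
  [Fintype μ] [Fintype ν] {M M' : Type} [AddCommGroup M] [Module R M] [AddCommGroup M']
  {Γ : Subgroup GQ} {T : Finset ℕ} {a : GQ → Matrix n n R} {P : κ → Ideal (𝓞 Qb)}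
  {b : κ → GQ → Matrix n μ R} {N : Matrix ν μ R}

theorem ac_map [Module R' M'] {s : Type} (f : M →ₛₗ[σ] M') (A : Matrix s μ R) (x : μ → M) :
    (fun i => f (ac A x i)) = ac (A.map σ) fun j => f (x j) :=
  funext fun i => by simp only [ac, map_sum, map_smulₛₗ, Matrix.map_apply]

theorem ac_lin [Module R M'] {s : Type} (f : M →ₗ[R] M') (A : Matrix s μ R) (x : μ → M) :
    (fun i => f (ac A x i)) = ac A fun j => f (x j) := ac_map f A x

theorem ac_sub {s : Type} (A : Matrix s μ R) (x y : μ → M) : ac A (x - y) = ac A x - ac A y :=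
  funext fun i => by simp only [ac, Pi.sub_apply, smul_sub, Finset.sum_sub_distrib]

theorem add_ac {s : Type} (A B : Matrix s μ R) (x : μ → M) : ac (A + B) x = ac A x + ac B x :=
  funext fun i => by simp only [ac, Pi.add_apply, Matrix.add_apply, add_smul, Finset.sum_add_distrib]

theorem zero_ac {s : Type} (x : μ → M) : ac (0 : Matrix s μ R) x = 0 :=
  funext fun i => by simp [ac]

theorem mul_ac {s : Type} (A : Matrix s ν R) (B : Matrix ν μ R) (x : μ → M) :
    ac (A * B) x = ac A (ac B x) :=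
  funext fun i => by
    simp only [ac, Matrix.mul_apply, Finset.sum_smul, Finset.smul_sum, mul_smul]
    exact Finset.sum_comm

theorem one_ac [DecidableEq μ] (x : μ → M) : ac (1 : Matrix μ μ R) x = x :=
  funext fun i => by simp [ac, Matrix.one_apply]

theorem ac_eq {s : Type} (A : Matrix s μ R) (x : μ → R) : ac A x = A.mulVec x := rfl

/-- the map induced on cochains with parameters -/
def mp {M M' : Type} (f : M → M') (x : (GQ → n → M) × (μ → M)) : (GQ → n → M') × (μ → M') :=
  (fun g i => f (x.1 g i), fun j => f (x.2 j))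

variable (M Γ T a P b N) in
/-- cocycles whose parameters satisfy the relations `N` -/
def Zn : Submodule R ((GQ → n → M) × (μ → M)) where
  carrier := {x | x ∈ Zs M Γ T a P b ∧ ac N x.2 = 0}
  add_mem' {x y} hx hy := ⟨add_mem hx.1 hy.1, by rw [Prod.snd_add, ac_add, hx.2, hy.2, add_zero]⟩
  zero_mem' := ⟨zero_mem _, ac_zero _⟩
  smul_mem' r x hx := ⟨Submodule.smul_mem _ r hx.1, by rw [Prod.smul_snd, ac_smul, hx.2, smul_zero]⟩

theorem zs_map [Module R' M'] (f : M →ₛₗ[σ] M') {x : (GQ → n → M) × (μ → M)}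
    (h : x ∈ Zs M Γ T a P b) :
    mp f x ∈ Zs M' Γ T (fun g => (a g).map σ) P fun i g => (b i g).map σ := by
  obtain ⟨h1, h2, ⟨W, hW, h3⟩, h4, h5⟩ := h
  have z : ∀ {g}, x.1 g = 0 → (mp f x).1 g = 0 := fun e => funext fun i => by
    simp only [mp, e, Pi.zero_apply, map_zero]
  refine ⟨fun g hg j hj => ?_, fun g hg => z (h2 g hg), ⟨W, hW, fun g hg => z (h3 g hg)⟩,
    fun g hg => z (h4 g hg), fun i g hg => ?_⟩
  · simp only [mp, h1 g hg j hj, ← ac_map, Pi.add_apply, map_add]
    rfl
  · simp only [mp, h5 i g hg, ← ac_map]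

theorem zn_map [Module R M'] (f : M →ₗ[R] M') {x : (GQ → n → M) × (μ → M)}
    (h : x ∈ Zn M Γ T a P b N) : mp f x ∈ Zn M' Γ T a P b N :=
  ⟨zs_map f h.1, (ac_lin f N x.2).symm.trans (funext fun i => by
    rw [h.2, Pi.zero_apply, map_zero]; rfl)⟩

/-- membership is detected by a separating family of linear maps -/
theorem zn_of [Module R M'] {α : Type} (f : α → M →ₗ[R] M') (s : ∀ m, (∀ t, f t m = 0) → m = 0)
    {x : (GQ → n → M) × (μ → M)} (h : ∀ t, mp (f t) x ∈ Zn M' Γ T a P b N)
    (l : ∃ W : Subgroup GQ, IsOpen (W : Set GQ) ∧ ∀ t, ∀ w ∈ W, (mp (f t) x).1 w = 0) :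
    x ∈ Zn M Γ T a P b N := by
  have e : ∀ {β : Type} {y z : β → M}, (∀ t, (fun i => f t (y i)) = fun i => f t (z i)) → y = z :=
    fun k => funext fun i => sub_eq_zero.1 (s _ fun t => by
      rw [map_sub, congrFun (k t) i, sub_self])
  have z : ∀ {β : Type} {y : β → M}, (∀ t, (fun i => f t (y i)) = 0) → y = 0 := fun k =>
    funext fun i => s _ fun t => congrFun (k t) i
  refine ⟨⟨fun g hg j hj => e fun t => ?_, fun g hg => z fun t => (h t).1.2.1 g hg,
    l.imp fun W hW => ⟨hW.1, fun w m => z fun t => hW.2 t w m⟩,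
    fun g hg => z fun t => (h t).1.2.2.2.1 g hg, fun i g hg => e fun t => ?_⟩, z fun t => ?_⟩
  · simp only [Pi.add_apply, map_add]
    exact ((h t).1.1 g hg j hj).trans (congrArg _ (ac_lin (f t) _ _).symm)
  · exact ((h t).1.2.2.2.2 i g hg).trans (ac_lin (f t) _ _).symm
  · exact (ac_lin (f t) _ _).trans (h t).2

theorem zn_inj [Module R M'] (f : M →ₗ[R] M') (s : Function.Injective f)
    {x : (GQ → n → M) × (μ → M)} (h : mp f x ∈ Zn M' Γ T a P b N) : x ∈ Zn M Γ T a P b N :=
  zn_of (fun _ : Unit => f) (fun m e => s ((e ()).trans (map_zero f).symm)) (fun _ => h)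
    (h.1.2.2.1.imp fun W hW => ⟨hW.1, fun _ => hW.2⟩)

variable [IsLocalRing R] [Finite R] (π : R →+* F2)

theorem zn_fin (hk : Finite (Zs F2 Γ T (fun g => (a g).map π) P fun i g => (b i g).map π))
    (c : ℕ) : ∀ (M : Type) [AddCommGroup M] [Module R M] [Finite M], Nat.card M = c →
      (Zn M Γ T a P b N : Set ((GQ → n → M) × (μ → M))).Finite := by
  induction c using Nat.strong_induction_on with | _ c ih => ?_
  intro M _ _ _ hc
  obtain h | h := subsingleton_or_nontrivial M
  · exact Set.toFinite _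
  obtain ⟨f, hf⟩ := ex_quot π (M := M)
  have lt : Nat.card (LinearMap.ker f) < c := hc ▸ Finite.card_subtype_lt
    (x := (DFunLike.ne_iff.1 hf).choose) (DFunLike.ne_iff.1 hf).choose_spec
  refine Set.Finite.of_finite_fibers (mp f) ((Set.toFinite (Zs F2 Γ T (fun g => (a g).map π) P
    fun i g => (b i g).map π : Set _)).subset ?_) ?_
  · rintro _ ⟨x, hx, rfl⟩
    exact zs_map f hx.1
  · rintro _ ⟨x, hx, rfl⟩
    refine ((ih _ lt _ rfl).image fun y => x + mp (LinearMap.ker f).subtype y).subset ?_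
    rintro y ⟨hy, e⟩
    refine ⟨(fun g i => ⟨y.1 g i - x.1 g i, ?_⟩, fun j => ⟨y.2 j - x.2 j, ?_⟩),
      zn_inj (LinearMap.ker f).subtype Subtype.val_injective (sub_mem hy hx), add_sub_cancel x y⟩
    · exact (map_sub f _ _).trans (sub_eq_zero.2 (congrFun (congrFun (congrArg Prod.fst e) g) i))
    · exact (map_sub f _ _).trans (sub_eq_zero.2 (congrFun (congrArg Prod.snd e) j))

omit [IsLocalRing R] in
theorem fin_char : Finite (CharacterModule R) := by
  have := (AddCircle.finite_torsion (1 : ℚ) (Nat.card_pos (α := R))).to_subtype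
  exact Finite.of_injective (β := R → {u : AddCircle (1 : ℚ) | Nat.card R • u = 0})
    (fun c r => ⟨c r, by
      show _ • c r = 0
      rw [← map_nsmul, card_nsmul_eq_zero', map_zero]⟩)
    fun c d e => DFunLike.ext _ _ fun r => congrArg Subtype.val (congrFun e r)

omit [IsLocalRing R] [Finite R] in
theorem sep_char (m : M) (h : ∀ f : M →ₗ[R] CharacterModule R, f m = 0) : m = 0 := by
  by_contra n
  obtain ⟨c, hc⟩ := CharacterModule.exists_character_apply_ne_zero_of_ne_zero n
  let f : M →ₗ[R] CharacterModule R :=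
    { toFun := fun x => (c : M →+ _).comp (LinearMap.toSpanSingleton R M x).toAddMonoidHom
      map_add' := fun x y => DFunLike.ext _ _ fun r => by
        change c (r • (x + y)) = c (r • x) + c (r • y)
        rw [smul_add, map_add]
      map_smul' := fun s x => DFunLike.ext _ _ fun r => by
        change c (r • s • x) = c ((s • r) • x)
        rw [smul_eq_mul, mul_comm, mul_smul] }
  exact hc ((congrArg c (one_smul R m)).symm.trans (DFunLike.congr_fun (h f) 1))

/-- **representability** -/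
theorem univ (hk : Finite (Zs F2 Γ T (fun g => (a g).map π) P fun i g => (b i g).map π)) :
    ∃ (X : Type) (_ : AddCommGroup X) (_ : Module R X) (_ : Finite X)
      (x₀ : (GQ → n → X) × (μ → X)), x₀ ∈ Zn X Γ T a P b N ∧
      ∀ (M : Type) [AddCommGroup M] [Module R M], (∀ x ∈ Zn M Γ T a P b N,
        ∃ ψ : X →ₗ[R] M, mp ψ x₀ = x) ∧ ∀ ψ ψ' : X →ₗ[R] M, mp ψ x₀ = mp ψ' x₀ → ψ = ψ' := by
  have := fin_char (R := R)
  have : Finite (Zn (CharacterModule R) Γ T a P b N) := zn_fin π hk _ _ rfl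
  let v : ∀ {M : Type}, (GQ → n → M) × (μ → M) → (GQ × n) ⊕ μ → M := fun x =>
    Sum.elim (fun p => x.1 p.1 p.2) x.2
  let A : ((GQ × n) ⊕ μ →₀ R) →ₗ[R] Zn (CharacterModule R) Γ T a P b N → CharacterModule R :=
    .pi fun z => Finsupp.linearCombination R (v z.1)
  let x₀ : (GQ → n → _ ⧸ LinearMap.ker A) × (μ → _ ⧸ LinearMap.ker A) :=
    (fun g i => (LinearMap.ker A).mkQ (Finsupp.single (.inl (g, i)) 1),
      fun j => (LinearMap.ker A).mkQ (Finsupp.single (.inr j) 1))
  have e : ∀ z : Zn (CharacterModule R) Γ T a P b N,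
      mp (LinearMap.proj (R := R) z ∘ₗ A.ker.liftQ A le_rfl) x₀ = z.1 := fun z =>
    Prod.ext (funext fun g => funext fun i => by simp [mp, x₀, A, v])
      (funext fun j => by simp [mp, x₀, A, v])
  have i : Function.Injective (A.ker.liftQ A le_rfl) :=
    LinearMap.ker_eq_bot.1 (Submodule.ker_liftQ_eq_bot _ _ _ le_rfl)
  refine ⟨_ ⧸ LinearMap.ker A, inferInstance, inferInstance, Finite.of_injective _ i, x₀,
    zn_of (fun z => LinearMap.proj z ∘ₗ A.ker.liftQ A le_rfl)
      (fun m h => i ((funext h).trans (map_zero _).symm)) (fun z => (e z).symm ▸ z.2) ?_,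
    fun M _ _ => ⟨fun x hx => ⟨A.ker.liftQ (Finsupp.linearCombination R (v x)) fun c hc =>
      sep_char (R := R) _ fun f => ?_, Prod.ext (funext fun g => funext fun i =>
        (Finsupp.linearCombination_single R 1 _).trans (one_smul _ _)) (funext fun j =>
        (Finsupp.linearCombination_single R 1 _).trans (one_smul _ _))⟩, fun ψ ψ' h => Submodule.linearMap_qext _
          (Finsupp.lhom_ext' fun j => LinearMap.ext_ring ?_)⟩⟩
  · choose W hW w using fun z : Zn (CharacterModule R) Γ T a P b N => z.2.1.2.2.1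
    exact ⟨⨅ z, W z, by rw [Subgroup.coe_iInf]; exact isOpen_iInter_of_finite hW,
      fun z u m => (e z).symm ▸ w z u (Subgroup.mem_iInf.1 m z)⟩
  · rw [Finsupp.apply_linearCombination]
    refine Eq.trans ?_ (congrFun hc ⟨mp f x, zn_map f hx⟩)
    exact congrArg (fun t => Finsupp.linearCombination R t c) (funext fun j => by cases j <;> rfl)
  · rcases j with ⟨g, i⟩ | j
    exacts [congrFun (congrFun (congrArg Prod.fst h) g) i, congrFun (congrArg Prod.snd h) j]

end Vale.Agent.P004F.Pr
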