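import Vale.Agent.P022K.G2.Lib
import Vale.Agent.P004F.Pr.Defs

/-!
# P004F, block PRES: local lemmas (invariants of projective modules, tame inertia, reciprocity)
-/

set_option linter.all false

noncomputable section

namespace Vale.Agent.P004F.Pr

open NumberField Module Cardinal
open Vale.Agent.P022 Vale.Agent.P022K Vale.Agent.P022K.G2
open Vale.Agent.P022K.G2.Cn Vale.Agent.P022K.G2.Sb Vale.Agent.P022K.G2.Hb Vale.Agent.P022K.G2.Cx
open Vale.Agent.P027M.S (Inert)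
open Vale.Agent.P022D.W (dec inP_le_dec)
open Vale.Agent.P022.H443 (inP)
open Vale.Agent.P022E.GW (Ov Fb)
open scoped Pointwise

/-- the field with two elements -/
abbrev F2 : Type := ZMod 2

theorem z01 : ∀ a : F2, a ≠ 0 → a = 1 := by decide

section lin

variable {k : Type} [Field k] {X Y Y' : Type} [AddCommGroup X] [Module k X] [AddCommGroup Y]
  [Module k Y] [AddCommGroup Y'] [Module k Y']

/-- a functional which detects the classes of a subquotient of dimension at most one -/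
theorem ex_fun {Z B : Submodule k X} (h : rq Z B ≤ 1) :
    ∃ f : X →ₗ[k] k, (∀ b ∈ B, f b = 0) ∧ ∀ z ∈ Z, f z = 0 → z ∈ B := by
  by_cases e : Z ≤ B
  · exact ⟨0, fun _ _ => rfl, fun z hz _ => e hz⟩
  obtain ⟨y, hy, n⟩ := SetLike.not_le_iff_exists.1 e
  obtain ⟨f, f1, f2⟩ := B.exists_le_ker_of_notMem n
  refine ⟨f, fun b hb => f2 hb, fun z hz h0 => ?_⟩
  obtain ⟨v, hv⟩ := rank_le_one_iff.1 h
  obtain ⟨r, hr⟩ := hv ⟨_, y, hy, rfl⟩
  obtain ⟨s, hs⟩ := hv ⟨_, z, hz, rfl⟩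
  replace hr : r • v.1 = B.mkQ y := congrArg Subtype.val hr
  replace hs : s • v.1 = B.mkQ z := congrArg Subtype.val hs
  have r0 : r ≠ 0 := fun c => n ((Submodule.Quotient.mk_eq_zero B).1 (by
    rw [c, zero_smul] at hr; exact hr.symm))
  have m : r • z - s • y ∈ B := (Submodule.Quotient.eq B).1 (by
    change B.mkQ _ = B.mkQ _
    rw [map_smul, map_smul, ← hr, ← hs, smul_comm])
  have := f2 m
  rw [LinearMap.mem_ker, map_sub, map_smul, map_smul, h0, smul_zero, zero_sub, neg_eq_zero,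
    smul_eq_mul] at this
  rw [(mul_eq_zero.1 this).resolve_right f1, zero_smul, sub_zero] at m
  exact (B.smul_mem_iff r0).1 m

theorem rq_le2 (f : X →ₗ[k] Y) (g : X →ₗ[k] Y') (Z : Submodule k X) {B : Submodule k Y}
    {B' : Submodule k Y'} (h : ∀ z ∈ Z, g z ∈ B' → f z ∈ B) :
    rq (Z.map f) B ≤ rq (Z.map g) B' :=
  ((self_le_add_right _ _).trans_eq (rq_split f Z (B := B.comap f) le_rfl)).trans
    (rq_le g (fun z hz => ⟨z, hz, rfl⟩) h)

theorem rq_bot (Z : Submodule k X) : rq Z ⊥ = rk Z := by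
  have := rq_add Z ⊥
  rwa [inf_bot_eq, rk, rank_bot, add_zero] at this

theorem rq_ker (f : X →ₗ[k] Y) (Z : Submodule k X) {B : Submodule k X}
    (h : B ≤ LinearMap.ker f) : rk (Z.map f) + rq (Z ⊓ LinearMap.ker f) B = rq Z B := by
  rw [← rq_bot]
  exact rq_split f Z (B' := ⊥) h

end lin

section grp

variable {G : Type} [Group G] [TopologicalSpace G] {N : Type} [AddCommGroup N] [Module F2 N]
  {A U : Subgroup G} {ρ : G → End F2 N}

/-- the local invariant of a class with values in a projective module -/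
theorem inv_ex {ω : G → F2} (d : Pd ∅ A U ρ ω) (h : h2 ∅ (A ⊓ U) (tr G F2) ≤ 1) :
    ∃ f : (G → G → N) →ₗ[F2] N, (∀ z ∈ Z2 ∅ A ρ, f z ∈ H0 A ρ fun _ => 1) ∧
      (∀ z ∈ Z2 ∅ A ρ, f z = 0 → z ∈ B2 ∅ A ρ) ∧ ∀ z (φ : Dual F2 N),
        (fun g j => φ (z g j)) ∈ B2 ∅ (A ⊓ U) (tr G F2) → φ (f z) = 0 := by
  have := d.fin
  obtain ⟨l, l1, l2⟩ := ex_fun h
  let b := Module.finBasis F2 N
  let f : (G → G → N) →ₗ[F2] N :=
    ∑ i, (l ∘ₗ ((b.coord i).compLeft G).compLeft G).smulRight (b i)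
  have hf : ∀ z (φ : Dual F2 N), φ (f z) = l fun g j => φ (z g j) := fun z φ => by
    have e : (fun g j => φ (z g j)) = ∑ i, φ (b i) • fun g j => b.coord i (z g j) :=
      funext fun g => funext fun j => by
        conv_lhs => rw [← b.sum_repr (z g j)]
        simp only [map_sum, map_smul, Finset.sum_apply, Pi.smul_apply, smul_eq_mul]
        exact Finset.sum_congr rfl fun _ _ => mul_comm _ _
    rw [e]
    simp only [f, LinearMap.sum_apply, map_sum, LinearMap.smulRight_apply, map_smul, smul_eq_mul,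
      mul_comm]
    rfl
  have tri : ∀ g ∈ A ⊓ U, ρ g = 1 := fun g m => d.tri g m.1 m.2
  have zz : ∀ z ∈ Z2 ∅ A ρ, ∀ φ : Dual F2 N, (fun g j => φ (z g j)) ∈ Z2 ∅ (A ⊓ U) (tr G F2) :=
    fun z hz φ => Z2.amap (Z2.mono hz subset_rfl inf_le_left) φ.toAddMonoidHom fun g hg n => by
      rw [tri g hg]; rfl
  refine ⟨f, fun z hz g hg => ?_, fun z hz h0 => ?_, fun z φ m => (hf z φ).trans (l1 _ m)⟩
  · rw [one_smul, ← sub_eq_zero]
    refine (Module.forall_dual_apply_eq_zero_iff F2 _).1 fun φ => ?_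
    have nz : ∀ a ∈ A, ∀ x ∈ A ⊓ U, a * x * a⁻¹ ∈ A ⊓ U := fun a ha x hx =>
      ⟨A.mul_mem (A.mul_mem ha hx.1) (A.inv_mem ha), d.nz a ha x hx.2⟩
    have c1 := zz z hz (φ ∘ₗ ρ g)
    have c2 := Dm.z2_cj (nz _ (inv_mem hg)) c1
    have c3 := l1 _ (B2.amap (ρ' := tr G F2) (B2.mono (cj0 G F2 N ∅ A ρ z g⁻¹ d.rp hz (inv_mem hg))
      subset_rfl inf_le_left) φ.toAddMonoidHom fun a ha n => by rw [tri a ha]; rfl)
    have c4 : l (fun x y => φ (z x y)) =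
        l fun x y => (φ ∘ₗ ρ g) (z (g⁻¹ * x * g⁻¹⁻¹) (g⁻¹ * y * g⁻¹⁻¹)) := by
      rw [← sub_eq_zero, ← map_sub, ← c3]
      congr 1
      funext x y
      simp
    rw [map_sub, sub_eq_zero, hf, c4]
    refine (hf z (φ ∘ₗ ρ g)).trans ?_
    by_cases e : l (fun x y => (φ ∘ₗ ρ g) (z x y)) = 0
    · rw [e, l1 _ (Dm.b2_cj (nz _ (inv_mem hg)) (l2 _ c1 e))]
    · refine (z01 _ e).trans (z01 _ fun c => e (l1 _ ?_)).symm
      exact B2.congr (Dm.b2_cj (nz _ hg) (l2 _ c2 c)) (fun x _ y _ => by simp [mul_assoc])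
        fun _ _ => rfl
  · refine tr2 G F2 N ∅ A U ρ z d.rp d.prj d.le hz ?_
    have e : z = ∑ i, fun g j => b.coord i (z g j) • b i := funext fun g => funext fun j => by
      rw [Finset.sum_apply, Finset.sum_apply]; exact (b.sum_repr (z g j)).symm
    rw [e]
    refine Submodule.sum_mem _ fun i _ => B2.amap (l2 _ (zz z hz (b.coord i)) ?_)
      (LinearMap.toSpanSingleton F2 N (b i)).toAddMonoidHom fun g hg n => by rw [tri g hg]; rfl
    rw [← hf, h0, map_zero]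

end grp

variable {l : ℕ} {P : Ideal (𝓞 Qb)} {Γ : Subgroup GQ}

theorem add_cyc {A : Type} [AddCommGroup A] (hA : ∀ a : A, l • a = 0 → a = 0) {F : GQ → A}
    {J : Subgroup GQ} (hF : ∀ g ∈ J, ∀ h ∈ J, F (g * h) = F g + F h) {V : Subgroup GQ}
    (hV : ∀ w ∈ J, w ∈ V → F w = 0) {τ g : GQ} (hτ : τ ∈ J) (hg : g ∈ J) {n : ℕ}
    (h : CH.Loc.WMod l V ((τ ^ n)⁻¹ * g)) : F g = n • F τ := by
  have pw : ∀ s ∈ J, ∀ m : ℕ, F (s ^ m) = m • F s := fun s hs m => by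
    induction m with
    | zero => rw [pow_zero, zero_smul]; exact hV 1 J.one_mem V.one_mem
    | succ m ih => rw [pow_succ, hF _ (J.pow_mem hs m) _ hs, ih, succ_nsmul]
  have hr := mul_mem (inv_mem (J.pow_mem hτ n)) hg
  obtain ⟨m, hm⟩ := h
  have h1 := hV _ (J.pow_mem hr _) hm
  rw [pw _ hr] at h1
  have h2 : ∀ (m : ℕ) (a : A), l ^ m • a = 0 → a = 0 := fun m => by
    induction m with
    | zero => intro a e; simpa using e
    | succ m ih => intro a e; exact ih a (hA _ (by rwa [← mul_smul, ← pow_succ']))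
  have h3 := hF _ (J.pow_mem hτ n) _ hr
  rwa [mul_inv_cancel_left, h2 _ _ h1, add_zero, pw _ hτ] at h3

/-- locally constant additive functions on a subgroup -/
def Ad (J : Subgroup GQ) {N : Type} [AddCommGroup N] (f : GQ → N) : Prop :=
  (∀ g ∈ J, ∀ h ∈ J, f (g * h) = f g + f h) ∧ ∃ W, Lv ∅ W ∧ ∀ w ∈ J, w ∈ W → f w = 0

theorem odd_mem (i : Γ.index = 2) {s : GQ} {m : ℕ} (o : Odd m) (h : s ^ m ∈ Γ) : s ∈ Γ := by
  obtain ⟨a, rfl⟩ := o
  rw [pow_succ, pow_mul] at h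
  exact (Γ.mul_mem_cancel_left (pow_mem (Subgroup.sq_mem_of_index_two i s) a)).1 h

/-- tame inertia of a quadratic field -/
theorem tame2 (o : IsOpen (Γ : Set GQ)) (i : Γ.index = 2) (h : Ov l P) (hl : l ≠ 2) :
    ∃ τ ∈ Γ ⊓ inP P, ∃ χ : GQ → F2, ∀ (N : Type) [AddCommGroup N] [Module F2 N] (f : GQ → N),
      Ad (Γ ⊓ inP P) f → ∀ g ∈ Γ ⊓ inP P, f g = χ g • f τ := by
  have lo : Odd l := h.1.odd_of_ne_two hl
  have cyc : ∀ V : Subgroup GQ, Lv ∅ V → ∃ τ ∈ Γ ⊓ inP P, ∀ g ∈ Γ ⊓ inP P, ∃ n : ℕ,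
      CH.Loc.WMod l V ((τ ^ n)⁻¹ * g) := fun V hV => by
    obtain ⟨W, hW, le⟩ := ex_lv' o
    have := (hV.inf hW).nrm
    obtain ⟨τ, hτ, e⟩ := CH.Loc.cyc_level (V ⊓ W) (hV.inf hW).opn h
    by_cases m : τ ∈ Γ
    · exact ⟨τ, ⟨m, hτ⟩, fun g hg => (e g hg.2).imp fun n ⟨a, ha⟩ => ⟨a, ha.1⟩⟩
    refine ⟨τ ^ 2, ⟨Subgroup.sq_mem_of_index_two i τ, pow_mem hτ 2⟩, fun g hg => ?_⟩
    obtain ⟨n, a, ha⟩ := e g hg.2
    have m1 := (Γ.mul_mem_cancel_right hg.1).1 (odd_mem i lo.pow (le ha.2))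
    obtain ⟨c, rfl⟩ := (Nat.even_or_odd n).resolve_right fun c => m (odd_mem i c (inv_mem_iff.1 m1))
    exact ⟨c, a, by rw [← pow_mul, two_mul]; exact ha.1⟩
  have tor : ∀ (N : Type) [AddCommGroup N] [Module F2 N] (a : N), l • a = 0 → a = 0 :=
    fun N _ _ a e => by
      rwa [← Nat.cast_smul_eq_nsmul F2, (ZMod.natCast_eq_one_iff_odd).2 lo, one_smul] at e
  by_cases e : ∃ χ : GQ → F2, Ad (Γ ⊓ inP P) χ ∧ ∃ τ ∈ Γ ⊓ inP P, χ τ ≠ 0
  · obtain ⟨χ, ⟨c1, V, hV, c2⟩, τ, hτ, c3⟩ := e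
    refine ⟨τ, hτ, χ, fun N _ _ f ⟨f1, W, hW, f2⟩ g hg => ?_⟩
    obtain ⟨s, hs, e⟩ := cyc _ (hV.inf hW)
    have k : ∀ g ∈ Γ ⊓ inP P, ∃ n : F2, f g = n • f s ∧ χ g = n * χ s := fun g hg => by
      obtain ⟨n, hn⟩ := e g hg
      exact ⟨n, by rw [add_cyc (tor N) f1 (V := V ⊓ W) (fun w a m => f2 w a m.2) hs hg hn,
        Nat.cast_smul_eq_nsmul], by
          rw [add_cyc (tor F2) c1 (V := V ⊓ W) (fun w a m => c2 w a m.1) hs hg hn, nsmul_eq_mul]⟩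
    obtain ⟨a, a1, a2⟩ := k τ hτ
    obtain ⟨n, n1, n2⟩ := k g hg
    rw [a2] at c3
    rw [n1, n2, a1, z01 _ (left_ne_zero_of_mul c3), z01 _ (right_ne_zero_of_mul c3), mul_one,
      one_smul]
  · push Not at e
    refine ⟨1, one_mem _, 0, fun N _ _ f ⟨f1, W, hW, f2⟩ g hg => ?_⟩
    rw [Pi.zero_apply, zero_smul]
    exact (Module.forall_dual_apply_eq_zero_iff F2 _).1 fun φ => e (fun x => φ (f x))
      ⟨fun x hx y hy => by beta_reduce; rw [f1 x hx y hy, map_add], W, hW, fun w a m => by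
        beta_reduce; rw [f2 w a m, map_zero]⟩ g hg

/-- a class which is trivial outside one tame place of degree one is trivial there -/
theorem one1 (o : IsOpen (Γ : Set GQ)) (h : Ov l P) (hl : l ≠ 2) (le : dec P ≤ Γ)
    {z : GQ → GQ → F2} (hz : z ∈ Z2 ∅ Γ (tp 2))
    (t : ∀ x ∈ Ab Set.univ, (∀ g ∈ Γ, x ≠ g • fp P) → z ∈ B2 ∅ (Γ ⊓ St x) (tp 2)) :
    z ∈ B2 ∅ (Γ ⊓ dec P) (tp 2) := by
  have e : Γ ⊓ dec P = dec P := inf_eq_right.2 le
  obtain ⟨φ, hφ⟩ := P022D.W.exists_phi h.1 h.2.1 h.2.2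
  obtain ⟨u, u1, u2, σ, hσ, u3⟩ := uch 2 Γ l P o h
  obtain ⟨β, b1, b2⟩ := dim1 nil2 gys Γ l P u z o (le_gz_two _) h u1 u2
    ⟨σ, hσ, u3 ▸ one_ne_zero⟩ (Z2.mono hz subset_rfl inf_le_left)
  have ui : ∀ g, Inert P g → u g = 0 := fun g hg => u2 g (le (inP_le_dec hg)) hg
  obtain ⟨s, hs⟩ := (tam 2 l P h hl).2.2 F2 F2 β (fun g j hg hj => b1.1 g
    (e.ge (inP_le_dec hg)) j (e.ge (inP_le_dec hj))) (b1.2.imp fun W hW =>
      ⟨hW.1, fun w m hw => hW.2 w (e.ge (inP_le_dec hw)) m⟩)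
  have k := one2 F2 Γ z Unit (fun _ => l) (fun _ => P) (fun _ => φ) (fun _ => u) (fun _ => β)
    (fun _ => s) o (by rwa [ch_om_two]) (fun _ => ⟨h, hl, hφ, le_inf le (le_gz_two _)⟩)
    (fun _ _ _ _ _ => rfl) (fun _ => ⟨e ▸ u1, e ▸ b1, fun g hg => ⟨ui g hg, hs g hg⟩, e ▸ b2⟩)
    fun x hx n => by rw [ch_om_two]; exact t x hx (n ())
  rw [Fintype.sum_unique] at k
  have s0 : s = 0 := (mul_eq_zero.1 k).resolve_left fun c =>
    one_ne_zero (u3.symm.trans (unr_zero h hφ (e ▸ u1) ui c hσ.2))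
  have := add_mem b2 (unr 2 F2 Γ l P _ o h (cup_z2 u1 b1) fun g hg j hj i hi a => by
    have m : i ∈ Γ ⊓ dec P := ⟨hi, inP_le_dec a⟩
    simp only [cup]
    rw [u1.1 g hg i m, b1.1 j hj i m, ui i a, hs i a, s0, smul_zero, add_zero, add_zero]
    exact ⟨rfl, rfl⟩)
  rwa [sub_add_cancel] at this

end Vale.Agent.P004F.Pr
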